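import Vale.Agent.P300.H813.Cov
import Vale.Agent.P300.H813.Jet
import Vale.Agent.P271.H408.Ext
import Vale.Agent.P268.Hol

/-!
# P300 / PROJ : boundary chart lemma (helper327)

`pr : E → V ⊂ ℂⁿ` a local homeomorphism with finite fibres, `μ` the pull back of the Lebesgue measure, `κ` a (branched) chart:
`κ : B → E` continuous and injective on the open set `B`, `pr ∘ κ` holomorphic on `B`, `J = det D(pr ∘ κ)`, `M` a
holomorphic multiplier.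

* `ext_chart` : `B = Ω ∩ {h ≠ 0}`; if `∫ |F|² W dμ < ∞` and `W (κ x) ≥ c |M x|²` locally on `Ω`, then `F(κ x) J(x) M(x)`
  extends to `Ω`;
* `jet_chart` : if `∫ |F - f0|² W dμ < ∞` near the point, `W (κ x) ≥ c |M x|² |x - x0|^(-m)`, `m ≥ 2 n + 2`, then the
  extensions of `F J M` and `f0 J M` have the same value and derivative at `x0`.
-/

open MeasureTheory Filter Topology Set Metric
open scoped ENNReal NNReal

set_option autoImplicit false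

namespace Vale.Agent.P300.H327

open Vale.Agent.P300.H813

variable {n : ℕ}

section bcl

variable {E : Type*} [TopologicalSpace E] [T2Space E] [SecondCountableTopology E] [MeasurableSpace E] [BorelSpace E]
  {pr : E → (Fin n → ℂ)} {V : Set (Fin n → ℂ)} {fib : (Fin n → ℂ) → Finset E} {μ : Measure E}
  {B Ω : Set (Fin n → ℂ)} {κ : (Fin n → ℂ) → E} {h M : (Fin n → ℂ) → ℂ}

/-- the Jacobian determinant of the chart -/
noncomputable def Jc (pr : E → (Fin n → ℂ)) (κ : (Fin n → ℂ) → E) (x : Fin n → ℂ) : ℂ :=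
  (fderiv ℂ (pr ∘ κ) x).det

/-- a branched chart of a covering with the pull back `μ` of the Lebesgue measure -/
structure IsChart (pr : E → (Fin n → ℂ)) (V : Set (Fin n → ℂ)) (fib : (Fin n → ℂ) → Finset E) (μ : Measure E)
    (κ : (Fin n → ℂ) → E) (B : Set (Fin n → ℂ)) : Prop where
  meas : MeasurableSet V
  loc : IsLocalHomeomorph pr
  mapsV : ∀ x, pr x ∈ V
  fibs : ∀ z ∈ V, ∀ x, x ∈ fib z ↔ pr x = z
  mu : ∀ Ψ : E → ℝ≥0∞, Measurable Ψ → ∫⁻ x, Ψ x ∂μ = ∫⁻ z in V, ∑ x ∈ fib z, Ψ x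
  isOpen : IsOpen B
  cont : ContinuousOn κ B
  inj : InjOn κ B
  diff : DifferentiableOn ℂ (pr ∘ κ) B

theorem differentiable_det327 : Differentiable ℂ (fun A : (Fin n → ℂ) →L[ℂ] (Fin n → ℂ) => A.det) := by
  have h4 : (fun A : (Fin n → ℂ) →L[ℂ] (Fin n → ℂ) => A.det) =
      fun A => Matrix.det (Matrix.of fun i j => A (Pi.single j 1) i) := by
    funext A
    rw [ContinuousLinearMap.det, ← LinearMap.det_toMatrix']
    congr 1
  rw [h4]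
  simp only [Matrix.det_apply, Matrix.of_apply]
  refine Differentiable.fun_sum fun σ _ => ?_
  refine Differentiable.const_smul ?_ _
  have h5 : ∀ i : Fin n, ContDiff ℂ 1 (fun A : (Fin n → ℂ) →L[ℂ] (Fin n → ℂ) =>
      A (Pi.single i (1 : ℂ)) (σ i)) := fun i => by fun_prop
  exact (contDiff_prod fun i _ => h5 i).differentiable (by norm_num)

theorem IsChart.cov (hκ : IsChart pr V fib μ κ B) {G : E → ℝ≥0∞} (hG : Measurable G) {D : Set (Fin n → ℂ)}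
    (hD : MeasurableSet D) (hDB : D ⊆ B) :
    ∫⁻ x in κ '' D, G x ∂μ = ∫⁻ x in D, ENNReal.ofReal (‖Jc pr κ x‖ ^ 2) * G (κ x) :=
  H813.cov hκ.meas hκ.loc hκ.mapsV hκ.fibs hκ.mu hκ.isOpen hκ.cont hκ.inj hκ.diff hG hD hDB

/-- the Jacobian is holomorphic -/
theorem IsChart.diffJ (hκ : IsChart pr V fib μ κ B) : DifferentiableOn ℂ (Jc pr κ) B := by
  have h1 : DifferentiableOn ℂ (fun x => fderiv ℂ (pr ∘ κ) x) B :=
    ((Vale.Agent.P268.analyticOnNhd_of_differentiableOn hκ.isOpen hκ.diff).fderiv).differentiableOn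
  exact differentiable_det327.comp_differentiableOn h1

theorem IsChart.meas_image (hκ : IsChart pr V fib μ κ B) {D : Set (Fin n → ℂ)} (hD : MeasurableSet D) (hDB : D ⊆ B) :
    MeasurableSet (κ '' D) :=
  hD.image_of_continuousOn_injOn (hκ.cont.mono hDB) (hκ.inj.mono hDB)

/-- weighted change of variables, as an inequality -/
theorem IsChart.le_weight (hκ : IsChart pr V fib μ κ B) {f : E → ℂ} (hf : Measurable f) {W : E → ℝ≥0∞} (hW : Measurable W)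
    {D : Set (Fin n → ℂ)} (hD : MeasurableSet D) (hDB : D ⊆ B) {w : (Fin n → ℂ) → ℝ}
    {c : ℝ} (hc : 0 < c) (hle : ∀ x ∈ D, ENNReal.ofReal (c * ‖M x‖ ^ 2 * w x) ≤ W (κ x)) :
    ENNReal.ofReal c * ∫⁻ x in D, ‖f (κ x) * Jc pr κ x * M x‖ₑ ^ 2 * ENNReal.ofReal (w x) ≤
      ∫⁻ x in κ '' D, ENNReal.ofReal (‖f x‖ ^ 2) * W x ∂μ := by
  have h0 : Measurable fun x => ENNReal.ofReal (‖f x‖ ^ 2) * W x := (hf.norm.pow_const 2).ennreal_ofReal.mul hW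
  rw [hκ.cov h0 hD hDB, ← lintegral_const_mul' _ _ ENNReal.ofReal_ne_top]
  refine setLIntegral_mono' hD fun x hx => ?_
  have h1 : ‖f (κ x) * Jc pr κ x * M x‖ₑ ^ 2 = ENNReal.ofReal (‖f (κ x)‖ ^ 2 * ‖Jc pr κ x‖ ^ 2 * ‖M x‖ ^ 2) := by
    rw [← ofReal_norm, ← ENNReal.ofReal_pow (norm_nonneg _), norm_mul, norm_mul, mul_pow, mul_pow]
  rw [h1, ← ENNReal.ofReal_mul (by positivity), ← ENNReal.ofReal_mul hc.le]
  calc ENNReal.ofReal (c * (‖f (κ x)‖ ^ 2 * ‖Jc pr κ x‖ ^ 2 * ‖M x‖ ^ 2 * w x)) =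
      ENNReal.ofReal (‖Jc pr κ x‖ ^ 2) * (ENNReal.ofReal (‖f (κ x)‖ ^ 2) * ENNReal.ofReal (c * ‖M x‖ ^ 2 * w x)) := by
        rw [← ENNReal.ofReal_mul (by positivity), ← ENNReal.ofReal_mul (by positivity)]
        congr 1
        ring
    _ ≤ ENNReal.ofReal (‖Jc pr κ x‖ ^ 2) * (ENNReal.ofReal (‖f (κ x)‖ ^ 2) * W (κ x)) := by
        gcongr
        exact hle x hx

/-- **`L²` sections extend over the branch divisor.** -/
theorem ext_chart (hκ : IsChart pr V fib μ κ (Ω ∩ {x | h x ≠ 0})) (hΩ : IsOpen Ω) (hh : DifferentiableOn ℂ h Ω)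
    (hne : ∀ p ∈ Ω, ∃ᶠ z in 𝓝 p, h z ≠ 0) {F : E → ℂ} (hF : Measurable F)
    (hFκ : DifferentiableOn ℂ (F ∘ κ) (Ω ∩ {x | h x ≠ 0})) (hM : DifferentiableOn ℂ M (Ω ∩ {x | h x ≠ 0}))
    {W : E → ℝ≥0∞} (hW : Measurable W) (hI : ∫⁻ x, ENNReal.ofReal (‖F x‖ ^ 2) * W x ∂μ ≠ ⊤)
    (hloc : ∀ y ∈ Ω, ∃ ρ > 0, ∃ c > 0, ∀ x ∈ ball y ρ ∩ (Ω ∩ {x | h x ≠ 0}), ENNReal.ofReal (c * ‖M x‖ ^ 2) ≤ W (κ x)) :
    ∃ G : (Fin n → ℂ) → ℂ, DifferentiableOn ℂ G Ω ∧ ∀ x ∈ Ω, h x ≠ 0 → G x = F (κ x) * Jc pr κ x * M x := by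
  refine Vale.Agent.P271.H408.ext_L2 hΩ hh hne ((hFκ.mul hκ.diffJ).mul hM) fun y hy => ?_
  obtain ⟨ρ, hρ, c, hc, hle⟩ := hloc y hy
  obtain ⟨ρ', hρ', hρΩ⟩ := Metric.isOpen_iff.1 hΩ y hy
  refine ⟨min ρ ρ', lt_min hρ hρ', ?_⟩
  have hsub : ball y (min ρ ρ') ∩ {z | h z ≠ 0} ⊆ ball y ρ ∩ (Ω ∩ {x | h x ≠ 0}) := fun x hx =>
    ⟨ball_subset_ball (min_le_left _ _) hx.1, hρΩ (ball_subset_ball (min_le_right _ _) hx.1), hx.2⟩
  have hD : MeasurableSet (ball y (min ρ ρ') ∩ {z | h z ≠ 0}) := by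
    have : ball y (min ρ ρ') ∩ {z | h z ≠ 0} = ball y (min ρ ρ') ∩ (Ω ∩ {x | h x ≠ 0}) := by
      ext x
      constructor
      · exact fun hx => ⟨hx.1, (hsub hx).2⟩
      · exact fun hx => ⟨hx.1, hx.2.2⟩
    rw [this]
    exact (isOpen_ball.inter hκ.isOpen).measurableSet
  have h1 := hκ.le_weight (M := M) hF hW hD (fun x hx => (hsub hx).2) (w := fun _ => 1) hc
    (fun x hx => by simpa using hle x (hsub hx))
  simp only [ENNReal.ofReal_one, mul_one] at h1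
  have h2 : ∫⁻ x in κ '' (ball y (min ρ ρ') ∩ {z | h z ≠ 0}), ENNReal.ofReal (‖F x‖ ^ 2) * W x ∂μ ≠ ⊤ :=
    ne_top_of_le_ne_top hI (setLIntegral_le_lintegral _ _)
  have h3 := ne_top_of_le_ne_top h2 h1
  intro htop
  apply h3
  have h4 : ∫⁻ x in ball y (min ρ ρ') ∩ {z | h z ≠ 0}, ‖F (κ x) * Jc pr κ x * M x‖ₑ ^ 2 = ⊤ := htop
  rw [h4, ENNReal.mul_top]
  exact (ENNReal.ofReal_pos.2 hc).ne'

/-- **prescribed jets.** -/
theorem jet_chart (hn : 0 < n) (hκ : IsChart pr V fib μ κ B) {x0 : Fin n → ℂ} {ρ : ℝ} (hρ : 0 < ρ)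
    (hnull : volume (ball x0 ρ \ B) = 0) {F f0 : E → ℂ} (hF : Measurable F) (hf0 : Measurable f0)
    {G g0 : (Fin n → ℂ) → ℂ} (hG : DifferentiableAt ℂ G x0) (hg0 : DifferentiableAt ℂ g0 x0)
    (hGe : ∀ x ∈ ball x0 ρ ∩ B, G x = F (κ x) * Jc pr κ x * M x)
    (hg0e : ∀ x ∈ ball x0 ρ ∩ B, g0 x = f0 (κ x) * Jc pr κ x * M x)
    {W : E → ℝ≥0∞} (hW : Measurable W) {A : Set E} (hA : κ '' (ball x0 ρ ∩ B) ⊆ A)
    (hI : ∫⁻ x in A, ENNReal.ofReal (‖F x - f0 x‖ ^ 2) * W x ∂μ ≠ ⊤) {m : ℕ} (hm : 2 * n + 2 ≤ m) {c : ℝ} (hc : 0 < c)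
    (hle : ∀ x ∈ ball x0 ρ ∩ B, ENNReal.ofReal (c * ‖M x‖ ^ 2 * (‖x - x0‖ ^ m)⁻¹) ≤ W (κ x)) :
    G x0 = g0 x0 ∧ fderiv ℂ G x0 = fderiv ℂ g0 x0 := by
  have hD : MeasurableSet (ball x0 ρ ∩ B) := (isOpen_ball.inter hκ.isOpen).measurableSet
  have h1 := hκ.le_weight (M := M) (hF.sub hf0) hW hD inter_subset_right (w := fun x => (‖x - x0‖ ^ m)⁻¹)
    hc hle
  have h2 : ∫⁻ x in κ '' (ball x0 ρ ∩ B), ENNReal.ofReal (‖(F - f0) x‖ ^ 2) * W x ∂μ ≠ ⊤ :=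
    ne_top_of_le_ne_top hI (lintegral_mono_set hA)
  have h3 := ne_top_of_le_ne_top h2 h1
  have h4 : ∫⁻ x in ball x0 ρ ∩ B, ‖(F - f0) (κ x) * Jc pr κ x * M x‖ₑ ^ 2 * ENNReal.ofReal ((‖x - x0‖ ^ m)⁻¹) ≠ ⊤ := by
    intro htop
    apply h3
    rw [htop, ENNReal.mul_top]
    exact (ENNReal.ofReal_pos.2 hc).ne'
  have h5 : ∫⁻ x in ball x0 ρ ∩ B, ‖G x - g0 x‖ₑ ^ 2 * ENNReal.ofReal ((‖x - x0‖ ^ m)⁻¹) ≠ ⊤ := by
    convert h4 using 1
    refine setLIntegral_congr_fun hD fun x hx => ?_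
    rw [hGe x hx, hg0e x hx]
    simp only [Pi.sub_apply, sub_mul]
  have h6 : ∫⁻ x in ball x0 ρ, ‖G x - g0 x‖ₑ ^ 2 * ENNReal.ofReal ((‖x - x0‖ ^ m)⁻¹) ≠ ⊤ := by
    have h7 : (ball x0 ρ ∩ B : Set (Fin n → ℂ)) =ᵐ[volume] ball x0 ρ := by
      have h8 : ball x0 ρ \ (ball x0 ρ ∩ B) = ball x0 ρ \ B := by rw [sdiff_self_inter]
      refine (LE.le.eventuallyLE (show ball x0 ρ ∩ B ≤ ball x0 ρ from inter_subset_left)).antisymm ?_
      rw [ae_le_set, h8]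
      exact hnull
    rwa [setLIntegral_congr h7] at h5
  have h8 : ∫⁻ x in ball (0 : Fin n → ℂ) ρ, ‖G (x + x0) - g0 (x + x0)‖ₑ ^ 2 * ENNReal.ofReal ((‖x‖ ^ m)⁻¹) ≠ ⊤ := by
    have h9 := (measurePreserving_add_right (volume : Measure (Fin n → ℂ)) x0).setLIntegral_comp_preimage_emb
      (MeasurableEquiv.addRight x0).measurableEmbedding
      (fun x => ‖G x - g0 x‖ₑ ^ 2 * ENNReal.ofReal ((‖x - x0‖ ^ m)⁻¹)) (ball x0 ρ)
    have h10 : (fun x : Fin n → ℂ => x + x0) ⁻¹' ball x0 ρ = ball 0 ρ := by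
      ext x
      simp [mem_ball, dist_eq_norm]
    rw [h10] at h9
    simp only [add_sub_cancel_right] at h9
    rw [h9]
    exact h6
  have hd : HasFDerivAt (fun x => G (x + x0) - g0 (x + x0)) (fderiv ℂ G x0 - fderiv ℂ g0 x0) 0 := by
    have e1 : HasFDerivAt (fun x : Fin n → ℂ => x + x0) (ContinuousLinearMap.id ℂ (Fin n → ℂ)) 0 :=
      (hasFDerivAt_id _).add_const x0
    have e2 : HasFDerivAt G (fderiv ℂ G x0) ((0 : Fin n → ℂ) + x0) := by rw [zero_add]; exact hG.hasFDerivAt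
    have e3 : HasFDerivAt g0 (fderiv ℂ g0 x0) ((0 : Fin n → ℂ) + x0) := by rw [zero_add]; exact hg0.hasFDerivAt
    have e4 := (e2.comp (0 : Fin n → ℂ) e1).sub (e3.comp (0 : Fin n → ℂ) e1)
    rw [ContinuousLinearMap.comp_id, ContinuousLinearMap.comp_id] at e4
    exact e4
  obtain ⟨r1, r2⟩ := jet_one hn hm hρ hd h8
  simp only [zero_add] at r1
  exact ⟨sub_eq_zero.1 r1, sub_eq_zero.1 r2⟩

end bcl

end Vale.Agent.P300.H327
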