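import Vale.Agent.P300.H266.SecSpec

/-!
# P300 / PROJ: the axes are a null set; `|pw x - pw x₀|² ≤ C |x - x₀|²` near `x₀`
-/

set_option autoImplicit false

open Set MeasureTheory Filter Asymptotics Vale.Agent.P300.H266

open scoped Topology ENNReal

namespace Vale.Agent.P300.H327

/-- A coordinate hyperplane is a null set. -/
theorem null_coord {n : ℕ} (j : Fin n) (a : ℂ) :
    volume {x : Fin n → ℂ | x j = a} = 0 := by
  have h : {x : Fin n → ℂ | x j = a} = (Function.eval j : (Fin n → ℂ) → ℂ) ⁻¹' {a} := by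
    ext x; simp
  rw [h, volume_pi]
  exact Measure.pi_eval_preimage_null _ (measure_singleton a)

/-- The axes are a null set. -/
theorem null_axes : volume {x : Fin 2 → ℂ | x 0 * x 1 = 0} = 0 := by
  refine measure_mono_null (t := {x : Fin 2 → ℂ | x 0 = 0} ∪ {x : Fin 2 → ℂ | x 1 = 0}) ?_ ?_
  · intro x hx
    exact mul_eq_zero.1 hx
  · exact measure_union_null (null_coord 0 0) (null_coord 1 0)

theorem ae_offAxes : ∀ᵐ x : Fin 2 → ℂ, x 0 ≠ 0 ∧ x 1 ≠ 0 := by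
  have h := null_axes
  rw [measure_eq_zero_iff_ae_notMem] at h
  filter_upwards [h] with x hx
  exact mul_ne_zero_iff.1 hx

theorem vz_nonneg {n : ℕ} (w z : Fin n → ℂ) : 0 ≤ vz w z :=
  Finset.sum_nonneg fun _ _ => sq_nonneg _

theorem vz_le {n : ℕ} (w z : Fin n → ℂ) : vz w z ≤ n * ‖z - w‖ ^ 2 := by
  unfold vz
  calc ∑ j, ‖z j - w j‖ ^ 2 ≤ ∑ _j : Fin n, ‖z - w‖ ^ 2 := by
        refine Finset.sum_le_sum fun j _ => ?_
        have := norm_le_pi_norm (z - w) j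
        rw [Pi.sub_apply] at this
        gcongr
    _ = n * ‖z - w‖ ^ 2 := by simp

theorem le_vz {n : ℕ} (w z : Fin n → ℂ) : ‖z - w‖ ^ 2 ≤ vz w z := by
  have h : ‖z - w‖ ≤ Real.sqrt (vz w z) := by
    refine (pi_norm_le_iff_of_nonneg (Real.sqrt_nonneg _)).2 fun j => ?_
    refine Real.le_sqrt_of_sq_le ?_
    rw [Pi.sub_apply]
    exact Finset.single_le_sum (f := fun j => ‖z j - w j‖ ^ 2) (fun _ _ => sq_nonneg _)
      (Finset.mem_univ j)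
  calc ‖z - w‖ ^ 2 ≤ Real.sqrt (vz w z) ^ 2 := by gcongr
    _ = vz w z := Real.sq_sqrt (vz_nonneg w z)

/-- `|f x - f x₀|² ≤ C |x - x₀|²` near `x₀`, for `f` differentiable at `x₀`. -/
theorem vz_local {n m : ℕ} {f : (Fin m → ℂ) → (Fin n → ℂ)} {x₀ : Fin m → ℂ}
    (hf : DifferentiableAt ℂ f x₀) :
    ∃ C : ℝ, 0 < C ∧ ∃ ρ : ℝ, 0 < ρ ∧
      ∀ x ∈ Metric.closedBall x₀ ρ, vz (f x₀) (f x) ≤ C * ‖x - x₀‖ ^ 2 := by
  obtain ⟨c, hc, hcb⟩ := (hf.isBigO_sub).exists_pos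
  have hev : ∀ᶠ x in 𝓝 x₀, ‖f x - f x₀‖ ≤ c * ‖x - x₀‖ := hcb.bound
  obtain ⟨ε, hε, hb⟩ := Metric.eventually_nhds_iff_ball.1 hev
  refine ⟨n * c ^ 2 + 1, by positivity, ε / 2, half_pos hε, fun x hx => ?_⟩
  have hx' : x ∈ Metric.ball x₀ ε :=
    Metric.closedBall_subset_ball (half_lt_self hε) hx
  have h1 := hb x hx'
  calc vz (f x₀) (f x) ≤ n * ‖f x - f x₀‖ ^ 2 := vz_le _ _
    _ ≤ n * (c * ‖x - x₀‖) ^ 2 := by gcongr
    _ = n * c ^ 2 * ‖x - x₀‖ ^ 2 := by ring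
    _ ≤ (n * c ^ 2 + 1) * ‖x - x₀‖ ^ 2 := by
        have : (0 : ℝ) ≤ ‖x - x₀‖ ^ 2 := sq_nonneg _
        nlinarith

theorem differentiable_pw (p q : ℕ) : Differentiable ℂ (pw p q) := by
  unfold pw
  refine differentiable_pi.2 fun j => ?_
  fin_cases j
  · exact (differentiable_apply 0).pow p
  · exact (differentiable_apply 1).pow q

/-- `|pw x - pw x₀|² ≤ C |x - x₀|²` near `x₀`. -/
theorem vz_pw (p q : ℕ) (x₀ : Fin 2 → ℂ) :
    ∃ C : ℝ, 0 < C ∧ ∃ ρ : ℝ, 0 < ρ ∧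
      ∀ x ∈ Metric.closedBall x₀ ρ, vz (pw p q x₀) (pw p q x) ≤ C * ‖x - x₀‖ ^ 2 :=
  vz_local (differentiable_pw p q x₀)

end Vale.Agent.P300.H327
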