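import Mathlib

/-! # P300 : limits along finite maps (helper327)

`π : X → Y` continuous with finite fibres, `X` compact. A map `f` into `X`, defined on a subset `A` which is locally
connected at `p ∈ closure A`, has a limit at `p` as soon as `π ∘ f` has one. -/

set_option autoImplicit false

open Filter Topology Set

namespace Vale.Agent.P300.H327

variable {P X Y : Type*} [TopologicalSpace P] [TopologicalSpace X] [TopologicalSpace Y]

/-- a limit exists along a finite map -/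
theorem exists_limit [CompactSpace X] [T2Space X] [T2Space Y] {π : X → Y} (hπ : Continuous π) {f : P → X}
    {A : Set P} {p : P} (hp : p ∈ closure A) {y : Y} (hfin : (π ⁻¹' {y}).Finite)
    (hy : Tendsto (fun q => π (f q)) (𝓝[A] p) (𝓝 y))
    (hc : ∀ V ∈ 𝓝 p, ∃ B ∈ 𝓝 p, B ⊆ V ∧ IsPreconnected (f '' (B ∩ A))) :
    ∃ c, π c = y ∧ Tendsto f (𝓝[A] p) (𝓝 c) := by
  have : (𝓝[A] p).NeBot := mem_closure_iff_nhdsWithin_neBot.1 hp
  -- a cluster point
  obtain ⟨c, hcl⟩ : ∃ c, ClusterPt c (map f (𝓝[A] p)) := exists_clusterPt_of_compactSpace _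
  -- all cluster points are in the fibre
  have hfib : ∀ d, ClusterPt d (map f (𝓝[A] p)) → π d = y := by
    intro d hd
    have h1 : ClusterPt (π d) (map π (map f (𝓝[A] p))) := hd.map hπ.continuousAt tendsto_map
    have h2 : map π (map f (𝓝[A] p)) ≤ 𝓝 y := by rw [map_map]; exact hy
    have h3 : ClusterPt (π d) (𝓝 y) := h1.mono h2
    exact eq_of_nhds_neBot h3
  refine ⟨c, hfib c hcl, ?_⟩
  refine le_nhds_of_unique_clusterPt fun d hd => ?_
  by_contra hne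
  have hcy := hfib c hcl
  have hdy := hfib d hd
  -- separate `c` from the rest of the fibre
  have hfin2 : ((π ⁻¹' {y}) \ {c}).Finite := hfin.subset sdiff_subset
  have hdisj : Disjoint ({c} : Set X) ((π ⁻¹' {y}) \ {c}) := disjoint_sdiff_right
  obtain ⟨O1, O2, hO1, hO2, h1, h2, h12⟩ :=
    (SeparatedNhds.of_isCompact_isCompact isCompact_singleton hfin2.isCompact hdisj)
  have hO : π ⁻¹' {y} ⊆ O1 ∪ O2 := by
    intro x hx
    by_cases hxc : x = c
    · exact Or.inl (h1 (by simp [hxc]))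
    · exact Or.inr (h2 ⟨hx, by simpa using hxc⟩)
  have hclosed : IsClosedMap π := hπ.isClosedMap
  obtain ⟨V, hV, hyV, hVO⟩ : ∃ V : Set Y, IsOpen V ∧ y ∈ V ∧ π ⁻¹' V ⊆ O1 ∪ O2 := by
    refine ⟨(π '' (O1 ∪ O2)ᶜ)ᶜ, (hclosed _ (hO1.union hO2).isClosed_compl).isOpen_compl, ?_, ?_⟩
    · rintro ⟨x, hx, hxy⟩
      exact hx (hO hxy)
    · intro x hx
      by_contra hxO
      exact hx ⟨x, hxO, rfl⟩
  have hW : {q | π (f q) ∈ V} ∈ 𝓝[A] p := hy (hV.mem_nhds hyV)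
  obtain ⟨W, hWp, hWA⟩ := mem_nhdsWithin_iff_exists_mem_nhds_inter.1 hW
  obtain ⟨B, hB, hBW, hBc⟩ := hc W hWp
  have himg : f '' (B ∩ A) ⊆ O1 ∪ O2 := by
    rintro _ ⟨q, hq, rfl⟩
    exact hVO (hWA ⟨hBW hq.1, hq.2⟩)
  have hBmem : f '' (B ∩ A) ∈ map f (𝓝[A] p) :=
    image_mem_map (inter_mem (mem_nhdsWithin_of_mem_nhds hB) self_mem_nhdsWithin)
  have hm1 : (O1 ∩ f '' (B ∩ A)).Nonempty :=
    clusterPt_iff_nonempty.1 hcl (hO1.mem_nhds (h1 rfl)) hBmem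
  have hm2 : (O2 ∩ f '' (B ∩ A)).Nonempty :=
    clusterPt_iff_nonempty.1 hd (hO2.mem_nhds (h2 ⟨hdy, by simpa using hne⟩)) hBmem
  obtain ⟨x, hx1, hx2, hx3⟩ := hBc O1 O2 hO1 hO2 himg (by rwa [inter_comm]) (by rwa [inter_comm])
  exact h12.le_bot ⟨hx2, hx3⟩

/-- uniqueness of limits on connected sets: the extension is continuous -/
theorem continuousOn_extend [CompactSpace X] [T2Space X] [T2Space Y] {π : X → Y} (hπ : Continuous π) {f : P → X}
    {A B : Set P} (hBA : B ⊆ closure A) (hfin : ∀ y, (π ⁻¹' {y}).Finite) {ρ : P → Y}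
    (hρ : ∀ p ∈ B, Tendsto ρ (𝓝[A] p) (𝓝 (ρ p))) (hf : ∀ p ∈ A, π (f p) = ρ p)
    (hc : ∀ p ∈ B, ∀ V ∈ 𝓝 p, ∃ C ∈ 𝓝 p, C ⊆ V ∧ IsPreconnected (f '' (C ∩ A))) :
    ContinuousOn (extendFrom A f) B ∧ ∀ p ∈ B, π (extendFrom A f p) = ρ p := by
  have hlim : ∀ p ∈ B, ∃ c, π c = ρ p ∧ Tendsto f (𝓝[A] p) (𝓝 c) := by
    intro p hp
    refine exists_limit hπ (hBA hp) (hfin _) ((hρ p hp).congr' ?_) (hc p hp)
    filter_upwards [self_mem_nhdsWithin] with q hq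
    exact (hf q hq).symm
  refine ⟨continuousOn_extendFrom hBA fun p hp => ?_, fun p hp => ?_⟩
  · obtain ⟨c, -, h⟩ := hlim p hp
    exact ⟨c, h⟩
  · obtain ⟨c, h1, h2⟩ := hlim p hp
    rw [extendFrom_eq (hBA hp) h2, h1]

end Vale.Agent.P300.H327
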